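import Mathlib
import Vale.Agent.P052.R2.H381.KyFan

/-!
# P052: a point of `S^3` with at least four colours
-/

namespace Vale.Agent.P052.R2.H381

/-- For ten even continuous functions `h_i ≥ 0` on `R^4` without common zero off `0` and such that
no `h_i` is positive at two orthogonal vectors, four of them are positive at a common point. -/
theorem exists_facet {m : ℕ} (h : Fin m → EuclideanSpace ℝ (Fin 4) → ℝ)
    (hc : ∀ i, Continuous (h i)) (heven : ∀ i x, h i (-x) = h i x) (hnn : ∀ i x, 0 ≤ h i x)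
    (hpos : ∀ x, x ≠ 0 → ∃ i, 0 < h i x)
    (horth : ∀ i x y, inner ℝ x y = 0 → ¬ (0 < h i x ∧ 0 < h i y)) :
    ∃ x : EuclideanSpace ℝ (Fin 4), ‖x‖ = 1 ∧
      ∃ A : Finset (Fin m), A.card = 4 ∧ ∀ a ∈ A, 0 < h a x := by
  classical
  have hy : ∀ a, ∃ y : EuclideanSpace ℝ (Fin 4), ∀ x, 0 < h a x → inner ℝ x y ≠ 0 := by
    intro a
    by_cases ha : ∃ y, 0 < h a y
    · obtain ⟨y, hy⟩ := ha
      exact ⟨y, fun x hx h0 => horth a x y h0 ⟨hx, hy⟩⟩
    · exact ⟨0, fun x hx => absurd ⟨x, hx⟩ ha⟩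
  choose y hy using hy
  obtain ⟨x, hx, t, ht, htx⟩ := kyFan (E := EuclideanSpace ℝ (Fin 4)) (n := 3) (m := m)
    (by simp) (fun a x => h a x * inner ℝ x (y a))
    (fun a => ((hc a).mul (continuous_id.inner continuous_const)).continuousOn)
    (fun a x _ => by rw [heven, inner_neg_left, mul_neg])
    (fun x hx => by
      have hx0 : x ≠ 0 := by
        rintro rfl
        simp at hx
      obtain ⟨i, hi⟩ := hpos x hx0
      exact ⟨i, mul_ne_zero hi.ne' (hy i x hi)⟩)
  refine ⟨x, by simpa using hx, Finset.univ.image t, ?_, ?_⟩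
  · rw [Finset.card_image_of_injective _ ht.injective]
    simp
  · intro a ha
    obtain ⟨j, -, rfl⟩ := Finset.mem_image.1 ha
    refine lt_of_le_of_ne (hnn _ _) fun h0 => ?_
    have := htx j
    rw [← h0, zero_mul, mul_zero] at this
    exact lt_irrefl _ this

end Vale.Agent.P052.R2.H381
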