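import Mathlib
import Vale.Agent.P052.R2.H381.Sym
import Vale.Agent.P052.R2.H97.Rank

/-!
# P052: surjectivity and the number of colours, from the Borsuk-Ulam theorem
-/

open Module P052.H97

namespace Vale.Agent.P052.R2.H381


variable {h : Fin 10 → EuclideanSpace ℝ (Fin 4) → ℝ}

/-- `Σ_k h_i (T e_k)`. -/
noncomputable def psi (h : Fin 10 → E4 → ℝ) (T : E4 →L[ℝ] E4) (i : Fin 10) : ℝ :=
  ∑ k : Fin 4, h i (T (EuclideanSpace.basisFun (Fin 4) ℝ k))

theorem psi_nonneg (hh : IsData h) (T : E4 →L[ℝ] E4) (i : Fin 10) : 0 ≤ psi h T i :=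
  Finset.sum_nonneg fun _ _ => hh.nonneg _ _

theorem psi_cont (hh : IsData h) (i : Fin 10) : Continuous fun T => psi h T i := by
  unfold psi
  refine continuous_finsetSum _ fun k _ => (hh.cont i).comp ?_
  exact (ContinuousLinearMap.apply ℝ E4 (EuclideanSpace.basisFun (Fin 4) ℝ k)).continuous

theorem psi_pos {T : E4 →L[ℝ] E4} {i : Fin 10} (hi : 0 < psi h T i) :
    ∃ x, 0 < h i (T x) := by
  by_contra hcon
  push Not at hcon
  have : psi h T i ≤ 0 := Finset.sum_nonpos fun k _ => hcon _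
  linarith

theorem psi_ne (hh : IsData h) {T : E4 →L[ℝ] E4} (hT : T ≠ 0) : ∃ i, 0 < psi h T i := by
  obtain ⟨k, hk⟩ : ∃ k, T (EuclideanSpace.basisFun (Fin 4) ℝ k) ≠ 0 := by
    by_contra hcon
    push Not at hcon
    apply hT
    apply ContinuousLinearMap.coe_injective
    refine (EuclideanSpace.basisFun (Fin 4) ℝ).toBasis.ext fun k => ?_
    simpa using hcon k
  obtain ⟨i, hi⟩ := hh.pos _ hk
  refine ⟨i, lt_of_lt_of_le hi ?_⟩
  exact Finset.single_le_sum (f := fun k => h i (T (EuclideanSpace.basisFun (Fin 4) ℝ k)))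
    (fun k _ => hh.nonneg _ _) (Finset.mem_univ k)

/-- **Lemma G.** -/
theorem lemmaG (hh : IsData h) (Ψ : (E4 →L[ℝ] E4) → Fin 10 → ℝ)
    (hc : ContinuousOn Ψ {T | T.IsPositive}) (h0 : ∀ T, T.IsPositive → ∀ i, 0 ≤ Ψ T i)
    (hne : ∀ T, T.IsPositive → T ≠ 0 → ∃ i, 0 < Ψ T i)
    (hs : ∀ T, T.IsPositive → ∀ i, 0 < Ψ T i → ∃ x, 0 < h i (T x))
    (v : Fin 10 → ℝ) (hv : ∀ i, v i ^ 2 = 1) :
    ∃ P N : E4 →L[ℝ] E4, P.IsPositive ∧ N.IsPositive ∧ (∀ x y, inner ℝ (P x) (N y) = (0 : ℝ)) ∧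
      ∃ r : ℝ, 0 < r ∧ ∀ i, Ψ P i - Ψ N i = r * v i := by
  obtain ⟨P, N, hP, hN, -, -, hPN0, hPN, hL⟩ := orth_bu (⊤ : Submodule ℝ E4) (F := Fin 9 → ℝ)
    (by simp [finrank_top])
    (fun T j => v j.succ * Ψ T j.succ - v 0 * Ψ T 0)
    (by
      refine continuousOn_pi.2 fun j => ?_
      have h1 : ∀ i, ContinuousOn (fun T => Ψ T i)
          {T | T.IsPositive ∧ LinearMap.range (T : E4 →ₗ[ℝ] E4) ≤ ⊤} := fun i =>
        ((continuousOn_pi.1 hc) i).mono fun T hT => hT.1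
      exact (continuousOn_const.mul (h1 _)).sub (continuousOn_const.mul (h1 _)))
  have h1 : ∀ i, v i * (Ψ P i - Ψ N i) = v 0 * (Ψ P 0 - Ψ N 0) := by
    intro i
    refine Fin.cases rfl (fun j => ?_) i
    have h2 : v j.succ * Ψ P j.succ - v 0 * Ψ P 0 = v j.succ * Ψ N j.succ - v 0 * Ψ N 0 :=
      congrFun hL j
    linarith
  set r := v 0 * (Ψ P 0 - Ψ N 0) with hr
  have h2 : ∀ i, Ψ P i - Ψ N i = r * v i := by
    intro i
    have h3 := hv i
    calc Ψ P i - Ψ N i = v i ^ 2 * (Ψ P i - Ψ N i) := by rw [h3, one_mul]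
      _ = v i * (v i * (Ψ P i - Ψ N i)) := by ring
      _ = r * v i := by rw [h1 i]; ring
  have key : ∀ P N : E4 →L[ℝ] E4, P.IsPositive → N.IsPositive →
      (∀ x y, inner ℝ (P x) (N y) = (0 : ℝ)) → P ≠ 0 → ∃ i, 0 < Ψ P i ∧ Ψ N i = 0 := by
    intro P N hP hN hPN hP0
    obtain ⟨i, hi⟩ := hne P hP hP0
    refine ⟨i, hi, ?_⟩
    by_contra hcon
    have h3 : 0 < Ψ N i := lt_of_le_of_ne (h0 N hN i) (Ne.symm hcon)
    obtain ⟨x, hx⟩ := hs P hP i hi
    obtain ⟨y, hy⟩ := hs N hN i h3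
    rcases hh.orth i _ _ (hPN x y) with h4 | h4
    · exact hx.ne' h4
    · exact hy.ne' h4
  have hr0 : r ≠ 0 := by
    intro hr0
    have h3 : ∀ i, Ψ P i = Ψ N i := fun i => by
      have := h2 i
      rw [hr0, zero_mul] at this
      linarith
    by_cases hP0 : P = 0
    · have hN0 : N ≠ 0 := fun hN0 => hPN0 ⟨hP0, hN0⟩
      obtain ⟨i, hi, hi'⟩ := key N P hN hP
        (fun x y => by rw [real_inner_comm]; exact hPN y x) hN0
      have := h3 i
      linarith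
    · obtain ⟨i, hi, hi'⟩ := key P N hP hN hPN hP0
      have := h3 i
      linarith
  rcases lt_or_gt_of_ne hr0 with h3 | h3
  · exact ⟨N, P, hN, hP, fun x y => by rw [real_inner_comm]; exact hPN y x, -r,
      by linarith, fun i => by linarith [h2 i]⟩
  · exact ⟨P, N, hP, hN, hPN, r, h3, h2⟩

theorem surj (hh : IsData h) : Surj h := by
  classical
  intro I
  obtain ⟨P, N, hP, hN, hPN, r, hr, hPr⟩ := lemmaG hh (fun T i => psi h T i)
    (continuousOn_pi.2 fun i => (psi_cont hh i).continuousOn) (fun T _ i => psi_nonneg hh T i)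
    (fun T _ hT => psi_ne hh hT) (fun T _ i hi => psi_pos hi)
    (fun i => if i ∈ I then 1 else -1) (fun i => by split_ifs <;> norm_num)
  set U := LinearMap.range (P : E4 →ₗ[ℝ] E4) with hU
  have hNU : ∀ y, N y ∈ Uᗮ := by
    intro y
    rw [Submodule.mem_orthogonal]
    rintro _ ⟨x, rfl⟩
    exact hPN x y
  have h1 : I ⊆ col h U := by
    intro i hi
    have h2 := hPr i
    simp only [hi, if_true, mul_one] at h2
    have h3 := psi_nonneg hh N i
    obtain ⟨x, hx⟩ := psi_pos (T := P) (i := i) (by linarith)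
    exact mem_col.2 ⟨P x, ⟨x, rfl⟩, hx⟩
  have h2 : Iᶜ ⊆ col h Uᗮ := by
    intro i hi
    rw [Finset.mem_compl] at hi
    have h2 := hPr i
    simp only [hi, if_false] at h2
    have h3 := psi_nonneg hh P i
    obtain ⟨x, hx⟩ := psi_pos (T := N) (i := i) (by linarith)
    exact mem_col.2 ⟨N x, hNU x, hx⟩
  have h3 := col_disjoint_orthogonal hh U
  refine ⟨U, le_antisymm (fun i hi => ?_) h1, le_antisymm (fun i hi => ?_) h2⟩
  · by_contra hcon
    exact Finset.disjoint_left.1 h3 hi (h2 (Finset.mem_compl.2 hcon))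
  · rw [Finset.mem_compl]
    intro hcon
    exact Finset.disjoint_left.1 h3 (h1 hcon) hi

theorem count (hh : IsData h) : Count h := by
  classical
  intro U
  by_contra hcon
  push Not at hcon
  obtain ⟨P, N, hP, hN, hPU, hNU, hPN0, hPN, hL⟩ := orth_bu U (F := col h U → ℝ)
    (by rw [Module.finrank_fintype_fun_eq_card, Fintype.card_coe]; exact hcon)
    (fun T j => psi h T j)
    (continuousOn_pi.2 fun i => (psi_cont hh i).continuousOn)
  have key : ∀ P N : E4 →L[ℝ] E4, (∀ x y, inner ℝ (P x) (N y) = (0 : ℝ)) →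
      LinearMap.range (P : E4 →ₗ[ℝ] E4) ≤ U → (∀ i ∈ col h U, psi h P i = psi h N i) →
      P = 0 := by
    intro P N hPN hPU hL
    by_contra hP0
    obtain ⟨i, hi⟩ := psi_ne hh hP0
    obtain ⟨x, hx⟩ := psi_pos hi
    have h1 : i ∈ col h U := mem_col.2 ⟨P x, hPU ⟨x, rfl⟩, hx⟩
    rw [hL i h1] at hi
    obtain ⟨y, hy⟩ := psi_pos hi
    rcases hh.orth i _ _ (hPN x y) with h4 | h4
    · exact hx.ne' h4
    · exact hy.ne' h4
  refine hPN0 ⟨key P N hPN hPU fun i hi => congrFun hL ⟨i, hi⟩,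
    key N P (fun x y => by rw [real_inner_comm]; exact hPN y x) hNU
      fun i hi => (congrFun hL ⟨i, hi⟩).symm⟩

end Vale.Agent.P052.R2.H381
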