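import Mathlib
import Vale.Agent.P052.R2.H381.Surj

/-!
# P052: Lemma E
-/

set_option linter.unusedSectionVars false

open Module P052.H97

namespace Vale.Agent.P052.R2.H381

variable {h : Fin 10 → EuclideanSpace ℝ (Fin 4) → ℝ}

open Classical in
/-- The support. -/
noncomputable def supp (f : Fin 10 → ℝ) : Finset (Fin 10) := Finset.univ.filter fun i => 0 < f i

theorem mem_supp {f : Fin 10 → ℝ} {i : Fin 10} : i ∈ supp f ↔ 0 < f i := by
  classical
  simp [supp]

section

variable {V : Type*} [NormedAddCommGroup V] [InnerProductSpace ℝ V] [FiniteDimensional ℝ V]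

theorem isClosed_positive : IsClosed {T : V →L[ℝ] V | T.IsPositive} := by
  have : {T : V →L[ℝ] V | T.IsPositive} =
      (⋂ (x : V) (y : V), {T : V →L[ℝ] V | inner ℝ (T x) y = inner ℝ x (T y)}) ∩
        ⋂ x : V, {T : V →L[ℝ] V | 0 ≤ inner ℝ (T x) x} := by
    ext T
    simp only [Set.mem_ofPred_eq, Set.mem_inter_iff, Set.mem_iInter,
      ContinuousLinearMap.isPositive_iff]
    rfl
  rw [this]
  refine IsClosed.inter (isClosed_iInter fun x => isClosed_iInter fun y => isClosed_eq ?_ ?_)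
    (isClosed_iInter fun x => isClosed_le continuous_const ?_)
  · fun_prop
  · fun_prop
  · fun_prop

/-- A uniform lower bound for the largest value. -/
theorem exists_eps (Φ : (V →L[ℝ] V) → Fin 10 → ℝ) (hc : Continuous Φ)
    (hh : ∀ (r : ℝ) s, 0 ≤ r → Φ (r • s) = r • Φ s)
    (hne : ∀ s, s.IsPositive → s ≠ 0 → ∃ i, 0 < Φ s i) :
    ∃ ε : ℝ, 0 < ε ∧ ∀ s, s.IsPositive → s ≠ 0 → ∃ i, ε * ‖s‖ < Φ s i := by
  have hK : IsCompact ({T : V →L[ℝ] V | T.IsPositive} ∩ Metric.sphere 0 1) :=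
    (isCompact_sphere _ _).inter_left isClosed_positive
  obtain ⟨ε, hε, hmin⟩ : ∃ ε : ℝ, 0 < ε ∧
      ∀ s ∈ {T : V →L[ℝ] V | T.IsPositive} ∩ Metric.sphere 0 1,
        ε ≤ Finset.univ.sup' Finset.univ_nonempty (Φ s) := by
    rcases ({T : V →L[ℝ] V | T.IsPositive} ∩ Metric.sphere 0 1).eq_empty_or_nonempty with
      he | hne'
    · exact ⟨1, one_pos, by rw [he]; simp⟩
    · have hcs : Continuous fun s => Finset.univ.sup' Finset.univ_nonempty (Φ s) := by
        refine Continuous.finset_sup'_apply _ fun i _ => ?_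
        exact (continuous_apply i).comp hc
      obtain ⟨s, hs, hmin⟩ := hK.exists_isMinOn hne' hcs.continuousOn
      refine ⟨_, ?_, fun s' hs' => hmin hs'⟩
      have hs0 : s ≠ 0 := by
        rintro rfl
        simpa using hs.2
      obtain ⟨i, hi⟩ := hne s hs.1 hs0
      exact lt_of_lt_of_le hi (Finset.le_sup' (Φ s) (Finset.mem_univ i))
  refine ⟨ε / 2, by linarith, fun s hs hs0 => ?_⟩
  have hn : 0 < ‖s‖ := norm_pos_iff.2 hs0
  have h1 : ‖s‖⁻¹ • s ∈ {T : V →L[ℝ] V | T.IsPositive} ∩ Metric.sphere 0 1 := by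
    refine ⟨hs.smul_of_nonneg (by positivity), ?_⟩
    rw [mem_sphere_zero_iff_norm, norm_smul, norm_inv, norm_norm, inv_mul_cancel₀ hn.ne']
  have h2 := hmin _ h1
  obtain ⟨i, -, hi⟩ := Finset.exists_mem_eq_sup' Finset.univ_nonempty (Φ (‖s‖⁻¹ • s))
  refine ⟨i, ?_⟩
  rw [hi, hh _ _ (by positivity), Pi.smul_apply, smul_eq_mul] at h2
  have h3 := mul_le_mul_of_nonneg_left h2 hn.le
  rw [← mul_assoc, mul_inv_cancel₀ hn.ne', one_mul] at h3
  have : 0 < ‖s‖ * ε := by positivity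
  linarith

variable [CompleteSpace V]

/-- Compression to a subspace. -/
noncomputable def cmp (j : V →ₗᵢ[ℝ] E4) (t : E4 →L[ℝ] E4) : V →L[ℝ] V :=
  (ContinuousLinearMap.adjoint j.toContinuousLinearMap) ∘L t ∘L j.toContinuousLinearMap

theorem cmp_apply (j : V →ₗᵢ[ℝ] E4) (t : E4 →L[ℝ] E4) (x : V) :
    cmp j t x = (ContinuousLinearMap.adjoint j.toContinuousLinearMap) (t (j x)) := rfl

theorem cmp_pos (j : V →ₗᵢ[ℝ] E4) {t : E4 →L[ℝ] E4} (ht : t.IsPositive) :
    (cmp j t).IsPositive :=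
  ht.adjoint_conj j.toContinuousLinearMap

theorem cmp_cont (j : V →ₗᵢ[ℝ] E4) : Continuous (cmp j) := by
  unfold cmp
  fun_prop

theorem cmp_smul (j : V →ₗᵢ[ℝ] E4) (r : ℝ) (t : E4 →L[ℝ] E4) :
    cmp j (r • t) = r • cmp j t := by
  ext x
  simp [cmp_apply]

/-- The orthogonal complement of the range of `j`. -/
noncomputable def Wp (j : V →ₗᵢ[ℝ] E4) : Submodule ℝ E4 := (LinearMap.range j.toLinearMap)ᗮ

theorem sub_mem_Wp (j : V →ₗᵢ[ℝ] E4) (x : E4) :
    x - j (ContinuousLinearMap.adjoint j.toContinuousLinearMap x) ∈ Wp j := by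
  rw [Wp, Submodule.mem_orthogonal]
  rintro _ ⟨v, rfl⟩
  have h1 : inner ℝ (j v) x = inner ℝ v (ContinuousLinearMap.adjoint j.toContinuousLinearMap x) := by
    rw [ContinuousLinearMap.adjoint_inner_right]
    rfl
  show inner ℝ (j v) _ = (0 : ℝ)
  rw [inner_sub_right, h1, j.inner_map_map, sub_self]

theorem comp_eq (j : V →ₗᵢ[ℝ] E4) {t : E4 →L[ℝ] E4} (ht : t.IsPositive)
    (h0 : t ∘L (Wp j).starProjection = 0) (x : E4) :
    t x = j (cmp j t (ContinuousLinearMap.adjoint j.toContinuousLinearMap x)) := by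
  have h1 : ∀ w ∈ Wp j, t w = 0 := by
    intro w hw
    have := congrArg (fun T : E4 →L[ℝ] E4 => T w) h0
    simpa [Submodule.starProjection_eq_self_iff.2 hw] using this
  have h2 : ∀ x, t x = t (j (ContinuousLinearMap.adjoint j.toContinuousLinearMap x)) := by
    intro x
    have := h1 _ (sub_mem_Wp j x)
    rwa [map_sub, sub_eq_zero] at this
  have h3 : ∀ x, t x = j (ContinuousLinearMap.adjoint j.toContinuousLinearMap (t x)) := by
    intro x
    have hw := sub_mem_Wp j (t x)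
    set w := t x - j (ContinuousLinearMap.adjoint j.toContinuousLinearMap (t x)) with hwdef
    have h4 : inner ℝ w w = (0 : ℝ) := by
      have a1 : inner ℝ (t x) w = (0 : ℝ) := by
        rw [ht.inner_left_eq_inner_right, h1 w hw, inner_zero_right]
      have a2 : inner ℝ (j (ContinuousLinearMap.adjoint j.toContinuousLinearMap (t x))) w =
          (0 : ℝ) := Submodule.inner_right_of_mem_orthogonal
            (K := LinearMap.range j.toLinearMap) ⟨_, rfl⟩ hw
      have a3 : inner ℝ w w = inner ℝ (t x) w -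
          inner ℝ (j (ContinuousLinearMap.adjoint j.toContinuousLinearMap (t x))) w := by
        rw [← inner_sub_left]
      rw [a3, a1, a2, sub_zero]
    rw [inner_self_eq_zero] at h4
    rw [h4] at hwdef
    exact (sub_eq_zero.1 hwdef.symm)
  rw [h3 x, h2 x, ← cmp_apply]

theorem norm_le_cmp (j : V →ₗᵢ[ℝ] E4) {t : E4 →L[ℝ] E4} (ht : t.IsPositive)
    (h0 : t ∘L (Wp j).starProjection = 0) : ‖t‖ ≤ ‖cmp j t‖ := by
  refine t.opNorm_le_bound (norm_nonneg _) fun x => ?_
  rw [comp_eq j ht h0 x, j.norm_map]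
  refine ((cmp j t).le_opNorm _).trans ?_
  refine mul_le_mul_of_nonneg_left ?_ (norm_nonneg _)
  refine ((ContinuousLinearMap.adjoint j.toContinuousLinearMap).le_opNorm x).trans ?_
  rw [LinearIsometryEquiv.norm_map]
  exact mul_le_of_le_one_left (norm_nonneg _) j.norm_toContinuousLinearMap_le

/-- The penalty constant for one colour. -/
theorem exists_M (hh : IsData h) (j : V →ₗᵢ[ℝ] E4) (Φ : (V →L[ℝ] V) → Fin 10 → ℝ)
    (hc : Continuous Φ)
    (hs : ∀ s, s.IsPositive → ∀ i, 0 < Φ s i → ∃ x, 0 < h i (j (s x))) {ε : ℝ} (hε : 0 < ε)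
    (i : Fin 10) :
    ∃ M : ℝ, 0 ≤ M ∧ ∀ t : E4 →L[ℝ] E4, t.IsPositive → ‖t‖ = 1 → (∀ x, h i (t x) = 0) →
      Φ (cmp j t) i ≤ ε + M * ‖t ∘L (Wp j).starProjection‖ := by
  set K : Set (E4 →L[ℝ] E4) := {t | t.IsPositive} ∩ Metric.sphere 0 1 ∩
    ({t | ε ≤ Φ (cmp j t) i} ∩ ⋂ x, {t | h i (t x) = 0}) with hK
  have hΦc : Continuous fun t : E4 →L[ℝ] E4 => Φ (cmp j t) i :=
    (continuous_apply i).comp (hc.comp (cmp_cont j))
  have hKc : IsCompact K := by
    refine IsCompact.inter_right ((isCompact_sphere _ _).inter_left isClosed_positive) ?_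
    refine IsClosed.inter (isClosed_le continuous_const hΦc) (isClosed_iInter fun x => ?_)
    refine isClosed_eq ((hh.cont i).comp ?_) continuous_const
    fun_prop
  have hK0 : ∀ t ∈ K, t ∘L (Wp j).starProjection ≠ 0 := by
    rintro t ⟨⟨ht, -⟩, ht2, ht3⟩ h0
    obtain ⟨x, hx⟩ := hs _ (cmp_pos j ht) i (lt_of_lt_of_le hε ht2)
    have h1 := comp_eq j ht h0 (j x)
    have h2 : ContinuousLinearMap.adjoint j.toContinuousLinearMap (j x) = x := by
      refine ext_inner_left ℝ fun v => ?_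
      rw [ContinuousLinearMap.adjoint_inner_right]
      exact j.inner_map_map v x
    rw [h2] at h1
    rw [← h1] at hx
    exact hx.ne' (Set.mem_iInter.1 ht3 (j x))
  obtain ⟨C, hC⟩ := hKc.exists_bound_of_continuousOn
    (f := fun t => Φ (cmp j t) i / ‖t ∘L (Wp j).starProjection‖)
    (by
      refine hΦc.continuousOn.div ?_ fun t ht => norm_ne_zero_iff.2 (hK0 t ht)
      fun_prop)
  refine ⟨max C 0, le_max_right _ _, fun t ht ht1 htx => ?_⟩
  by_cases hcase : ε ≤ Φ (cmp j t) i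
  · have htK : t ∈ K := ⟨⟨ht, by simpa using ht1⟩, hcase, Set.mem_iInter.2 htx⟩
    have h1 := hC t htK
    have hn : 0 < ‖t ∘L (Wp j).starProjection‖ := norm_pos_iff.2 (hK0 t htK)
    have h2 := (le_abs_self _).trans h1
    rw [div_le_iff₀ hn] at h2
    have h3 : C * ‖t ∘L (Wp j).starProjection‖ ≤ max C 0 * ‖t ∘L (Wp j).starProjection‖ :=
      mul_le_mul_of_nonneg_right (le_max_left _ _) hn.le
    linarith
  · have := mul_nonneg (le_max_right C 0) (norm_nonneg (t ∘L (Wp j).starProjection))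
    linarith [not_le.1 hcase]

/-- **Lemma E.** -/
theorem lemmaE (hh : IsData h) (j : V →ₗᵢ[ℝ] E4) (Φ : (V →L[ℝ] V) → Fin 10 → ℝ)
    (hc : Continuous Φ) (hhom : ∀ (r : ℝ) s, 0 ≤ r → Φ (r • s) = r • Φ s)
    (hne : ∀ s, s.IsPositive → s ≠ 0 → ∃ i, 0 < Φ s i)
    (hs : ∀ s, s.IsPositive → ∀ i, 0 < Φ s i → ∃ x, 0 < h i (j (s x))) :
    ∃ s, s.IsPositive ∧ finrank ℝ V ≤ rk h (supp (Φ s)) := by
  obtain ⟨ε, hε, hΦε⟩ := exists_eps Φ hc hhom hne
  choose M hM0 hM using fun i => exists_M hh j Φ hc hs hε i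
  set Ψ : (E4 →L[ℝ] E4) → Fin 10 → ℝ := fun t i =>
    psi h (t ∘L (Wp j).starProjection) i +
      max 0 (Φ (cmp j t) i - ε * ‖t‖ - M i * ‖t ∘L (Wp j).starProjection‖) with hΨ
  have hΨc : Continuous Ψ := by
    refine continuous_pi fun i => ?_
    have h1 : Continuous fun t : E4 →L[ℝ] E4 => Φ (cmp j t) i :=
      (continuous_apply i).comp (hc.comp (cmp_cont j))
    have h2 : Continuous fun t : E4 →L[ℝ] E4 => t ∘L (Wp j).starProjection := by fun_prop
    exact ((psi_cont hh i).comp h2).add (continuous_const.max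
      ((h1.sub (continuous_const.mul continuous_norm)).sub (continuous_const.mul h2.norm)))
  have hΨ0 : ∀ t, t.IsPositive → ∀ i, 0 ≤ Ψ t i := fun t _ i =>
    add_nonneg (psi_nonneg hh _ _) (le_max_left _ _)
  have hΨne : ∀ t, t.IsPositive → t ≠ 0 → ∃ i, 0 < Ψ t i := by
    intro t ht ht0
    by_cases h0 : t ∘L (Wp j).starProjection = 0
    · have hcmp : cmp j t ≠ 0 := by
        intro hz
        apply ht0
        ext1 x
        rw [comp_eq j ht h0 x, hz]
        simp
      obtain ⟨i, hi⟩ := hΦε _ (cmp_pos j ht) hcmp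
      refine ⟨i, ?_⟩
      have h1 := mul_le_mul_of_nonneg_left (norm_le_cmp j ht h0) hε.le
      have h2 : 0 < Φ (cmp j t) i - ε * ‖t‖ - M i * ‖t ∘L (Wp j).starProjection‖ := by
        rw [h0, norm_zero, mul_zero, sub_zero]
        linarith
      exact add_pos_of_nonneg_of_pos (psi_nonneg hh _ _) (lt_max_of_lt_right h2)
    · obtain ⟨i, hi⟩ := psi_ne hh h0
      exact ⟨i, add_pos_of_pos_of_nonneg hi (le_max_left _ _)⟩
  have hΨs' : ∀ t, t.IsPositive → ∀ i, 0 < Ψ t i →
      0 < psi h (t ∘L (Wp j).starProjection) i ∨ (0 < Φ (cmp j t) i ∧ ε * ‖t‖ +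
        M i * ‖t ∘L (Wp j).starProjection‖ < Φ (cmp j t) i) := by
    intro t ht i hi
    by_cases h1 : 0 < psi h (t ∘L (Wp j).starProjection) i
    · exact Or.inl h1
    · right
      have h2 : 0 < max 0 (Φ (cmp j t) i - ε * ‖t‖ - M i * ‖t ∘L (Wp j).starProjection‖) := by
        have : Ψ t i = psi h (t ∘L (Wp j).starProjection) i + max 0 (Φ (cmp j t) i - ε * ‖t‖ -
          M i * ‖t ∘L (Wp j).starProjection‖) := rfl
        linarith [not_lt.1 h1]
      rcases lt_max_iff.1 h2 with h3 | h3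
      · exact absurd h3 (lt_irrefl _)
      · have h4 : 0 ≤ ε * ‖t‖ := by positivity
        have h5 : 0 ≤ M i * ‖t ∘L (Wp j).starProjection‖ := mul_nonneg (hM0 i) (norm_nonneg _)
        exact ⟨by linarith, by linarith⟩
  have hΨs : ∀ t, t.IsPositive → ∀ i, 0 < Ψ t i → ∃ x, 0 < h i (t x) := by
    intro t ht i hi
    rcases hΨs' t ht i hi with h1 | ⟨h1, h2⟩
    · obtain ⟨x, hx⟩ := psi_pos h1
      exact ⟨_, hx⟩
    · by_contra hcon
      push Not at hcon
      have hx0 : ∀ x, h i (t x) = 0 := fun x => le_antisymm (hcon x) (hh.nonneg _ _)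
      by_cases ht0 : t = 0
      · rw [ht0] at h1
        have h3 : cmp j (0 : E4 →L[ℝ] E4) = 0 := by
          ext x
          simp [cmp_apply]
        have h4 := hhom 0 0 le_rfl
        rw [zero_smul, zero_smul] at h4
        rw [h3, h4] at h1
        exact lt_irrefl _ h1
      · have hn : 0 < ‖t‖ := norm_pos_iff.2 ht0
        have h3 := hM i (‖t‖⁻¹ • t) (ht.smul_of_nonneg (by positivity))
          (by rw [norm_smul, norm_inv, norm_norm, inv_mul_cancel₀ hn.ne'])
          (fun x => by rw [smul_apply, hh.hom, hx0, mul_zero])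
        rw [cmp_smul, hhom _ _ (by positivity), Pi.smul_apply, smul_eq_mul,
          ContinuousLinearMap.smul_comp, norm_smul, norm_inv, norm_norm] at h3
        have h4 := mul_le_mul_of_nonneg_left h3 hn.le
        have h5 : ‖t‖ * (‖t‖⁻¹ * Φ (cmp j t) i) = Φ (cmp j t) i := by
          field_simp
        have h6 : ‖t‖ * (ε + M i * (‖t‖⁻¹ * ‖t ∘L (Wp j).starProjection‖)) =
            ε * ‖t‖ + M i * ‖t ∘L (Wp j).starProjection‖ := by
          field_simp
        rw [h5, h6] at h4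
        linarith
  obtain ⟨P, N, hP, hN, -, r, hr, hPr⟩ := lemmaG hh Ψ hΨc.continuousOn hΨ0 hΨne hΨs
    (fun _ => 1) (fun _ => by norm_num)
  refine ⟨cmp j P, cmp_pos j hP, ?_⟩
  have hsj := surj hh
  have hcov : Finset.univ ⊆ col h (LinearMap.range ((P ∘L (Wp j).starProjection : E4 →L[ℝ] E4) :
      E4 →ₗ[ℝ] E4)) ∪ supp (Φ (cmp j P)) := by
    intro i _
    have h1 := hPr i
    have h2 := hΨ0 N hN i
    rcases hΨs' P hP i (by linarith) with h3 | ⟨h3, -⟩
    · obtain ⟨x, hx⟩ := psi_pos h3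
      exact Finset.mem_union_left _ (mem_col.2 ⟨_, ⟨x, rfl⟩, hx⟩)
    · exact Finset.mem_union_right _ (mem_supp.2 h3)
  have h1 := rk_mono hh hcov
  rw [rk_univ hh] at h1
  have h2 := rk_union_le hh hsj (col h (LinearMap.range
    ((P ∘L (Wp j).starProjection : E4 →L[ℝ] E4) : E4 →ₗ[ℝ] E4))) (supp (Φ (cmp j P)))
  have h3 : rk h (col h (LinearMap.range ((P ∘L (Wp j).starProjection : E4 →L[ℝ] E4) :
      E4 →ₗ[ℝ] E4))) ≤ finrank ℝ (Wp j) := by
    rw [rk_col hh hsj]
    rw [ContinuousLinearMap.toLinearMap_comp, LinearMap.range_comp]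
    refine (Submodule.finrank_map_le _ _).trans ?_
    have : LinearMap.range ((Wp j).starProjection : E4 →ₗ[ℝ] E4) = Wp j :=
      Submodule.range_starProjection _
    rw [this]
  have h4 : finrank ℝ (LinearMap.range j.toLinearMap) = finrank ℝ V :=
    LinearMap.finrank_range_of_inj j.injective
  have h5 : finrank ℝ (LinearMap.range j.toLinearMap) + finrank ℝ (Wp j) = 4 :=
    finrank_add_orthogonal (LinearMap.range j.toLinearMap)
  omega

end

end Vale.Agent.P052.R2.H381
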