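import Mathlib
import Vale.Agent.P052.R2.H381.LemE
import Vale.Agent.P052.R2.H381.Facet
import Vale.Agent.P052.R2.H97.WV
import Vale.Agent.P052.R2.H495.LemL
import Vale.Agent.P052.R2.H8.Fin38

/-!
# P052: assembly of the plain Borsuk-Ulam route
-/

open Module P052.H97

namespace Vale.Agent.P052.R2.H381

variable {h : Fin 10 → EuclideanSpace ℝ (Fin 4) → ℝ}

theorem lemmaE97 (hh : IsData h) : LemmaE h := by
  intro m j Φ hc hhom _ hne hs
  obtain ⟨s, hsp, hr⟩ := lemmaE hh j Φ hc hhom hne hs
  refine ⟨s, hsp, fun W hW => ?_⟩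
  rw [finrank_euclideanSpace, Fintype.card_fin] at hr
  have h1 : col h W ⊆ (supp (Φ s))ᶜ :=
    (col_subset_compl_iff hh).1 fun i hi w hw => hW i (mem_supp.1 hi) w hw
  have h2 := finrank_le_rk h1
  have h3 := rk_add_compl hh (surj hh) (supp (Φ s))
  omega

/-- Lemma (L): in a set `I` of rank two every colour lies in a triple of rank two. -/
theorem lemL (hh : IsData h) {I : Finset (Fin 10)} (hI : rk h I = 2) {o : Fin 10} (ho : o ∈ I) :
    ∃ T ⊆ I, o ∈ T ∧ T.card = 3 ∧ ¬ rk h T ≤ 1 := by
  have hs := surj hh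
  have hc := count hh
  obtain ⟨U, hU, hU'⟩ := hs I
  have hRR : ∀ T : Finset (Fin 10), Vale.Agent.P052.R2.H495.RR h T 1 ↔ rk h T ≤ 1 :=
    fun T => R_iff hh hs
  obtain ⟨T, hT, hoT, hT3, hTR⟩ := Vale.Agent.P052.R2.H495.lemL hh.cont hh.hom hh.pos
    (fun j Φ h1 h2 h3 h4 h5 => lemmaE97 hh 2 j Φ h1 h2 h3 h4 h5)
    (fun T hT => (hRR T).2 (rk_pair hh hc (by omega))) I U
    (by rw [← rk_eq hh hU hU', hI]) (fun i => by rw [← hU, mem_col]) o ho
  exact ⟨T, hT, hoT, hT3, fun h => hTR ((hRR T).2 h)⟩

/-- **There are no ten such functions.** -/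
theorem no_data (h : Fin 10 → EuclideanSpace ℝ (Fin 4) → ℝ) : ¬ IsData h := by
  classical
  intro hh
  have hs := surj hh
  have hc := count hh
  have hE := lemmaE97 hh
  refine P052.H8.fin38 (fun A => rk h A ≤ 1) ?_ ?_ ?_ ?_ ?_ ?_
  · intro A B hBA hA
    exact (rk_mono hh hBA).trans hA
  · intro x p q r hxp hxq hxr hpq hpr hqr h1 h2 h3
    by_contra h4
    have hcard : ({x, p, q, r} : Finset (Fin 10)).card = 4 := by
      rw [Finset.card_insert_of_notMem (by simp [hxp, hxq, hxr]),
        Finset.card_insert_of_notMem (by simp [hpq, hpr]), Finset.card_pair hqr]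
    have hI : rk h {x, p, q, r} = 2 := by
      have a1 := rk_le_two hh hc (I := {x, p, q, r}) (by omega)
      have a2 := rk_mono hh (I := {x, p, r}) (J := {x, p, q, r}) (by
        intro i hi
        simp only [Finset.mem_insert, Finset.mem_singleton] at hi ⊢
        tauto)
      omega
    obtain ⟨T, hT, hqT, hT3, hTR⟩ := lemL hh hI (o := q) (by simp)
    apply hTR
    obtain ⟨y, hy, hyT⟩ : ∃ y ∈ ({x, p, q, r} : Finset (Fin 10)), y ∉ T := by
      by_contra hcon
      push Not at hcon
      have := Finset.card_le_card (show ({x, p, q, r} : Finset (Fin 10)) ⊆ T from hcon)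
      omega
    have hTe : T = ({x, p, q, r} : Finset (Fin 10)).erase y := by
      refine Finset.eq_of_subset_of_card_le (fun i hi => ?_) ?_
      · exact Finset.mem_erase.2 ⟨fun h => hyT (h ▸ hi), hT hi⟩
      · rw [Finset.card_erase_of_mem hy]
        omega
    have hyq : y ≠ q := fun h => hyT (h ▸ hqT)
    simp only [Finset.mem_insert, Finset.mem_singleton] at hy
    rcases hy with rfl | rfl | rfl | rfl
    · have : T = {p, q, r} := by
        rw [hTe]
        ext i
        simp only [Finset.mem_erase, Finset.mem_insert, Finset.mem_singleton]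
        constructor
        · tauto
        · rintro (rfl | rfl | rfl)
          · exact ⟨hxp.symm, by simp⟩
          · exact ⟨hxq.symm, by simp⟩
          · exact ⟨hxr.symm, by simp⟩
      rw [this]
      exact h1
    · have : T = {x, q, r} := by
        rw [hTe]
        ext i
        simp only [Finset.mem_erase, Finset.mem_insert, Finset.mem_singleton]
        constructor
        · tauto
        · rintro (rfl | rfl | rfl)
          · exact ⟨hxp, by simp⟩
          · exact ⟨hpq.symm, by simp⟩
          · exact ⟨hpr.symm, by simp⟩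
      rw [this]
      exact h3
    · exact absurd rfl hyq
    · have : T = {x, p, q} := by
        rw [hTe]
        ext i
        simp only [Finset.mem_erase, Finset.mem_insert, Finset.mem_singleton]
        constructor
        · tauto
        · rintro (rfl | rfl | rfl)
          · exact ⟨hxr, by simp⟩
          · exact ⟨hpr, by simp⟩
          · exact ⟨hqr, by simp⟩
      rw [this]
      exact h2
  · intro A x hA hA4 hx
    have hcard : (insert x A).card = 5 := by rw [Finset.card_insert_of_notMem hx, hA4]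
    obtain ⟨T, hT, hxT, hT3, hTR⟩ := lemL hh (rk_five hh hs hc hcard)
      (Finset.mem_insert_self x A)
    have h1 : (T.erase x).card = 2 := by rw [Finset.card_erase_of_mem hxT]; omega
    obtain ⟨a, b, hab, hTe⟩ := Finset.card_eq_two.1 h1
    have hA' : ∀ c ∈ T.erase x, c ∈ A := by
      intro c hc
      obtain ⟨hc1, hc2⟩ := Finset.mem_erase.1 hc
      exact (Finset.mem_insert.1 (hT hc2)).resolve_left hc1
    refine ⟨a, hA' a (by simp [hTe]), b, hA' b (by simp [hTe]), hab, ?_⟩
    have h2 : ({x, a, b} : Finset (Fin 10)) = T := by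
      rw [← Finset.insert_erase hxT, hTe]
    rw [h2]
    exact hTR
  · intro A a hA hA4 ha
    obtain ⟨e, he, hea, hR⟩ := wv hE hh hs (A.erase a) a
      (by rw [Finset.card_erase_of_mem ha]; omega) (Finset.notMem_erase a A)
      (by rw [Finset.insert_erase ha]; exact (R_iff hh hs).2 hA)
    refine ⟨e, fun heA => he (Finset.mem_erase.2 ⟨hea, heA⟩), (R_iff hh hs).1 hR⟩
  · intro A B hA hB hA4 hB4 hd
    have h1 : (A ∪ B).card = 8 := by rw [Finset.card_union_of_disjoint hd]; omega
    have h2 : ((A ∪ B)ᶜ).card = 2 := by rw [card_compl_ten]; omega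
    exact cover_ne hh hs hA hB (rk_pair hh hc h2.le) (Finset.union_compl _)
  · obtain ⟨x, -, A, hA4, hA⟩ := exists_facet h hh.cont
      (fun i x => by rw [← neg_one_smul ℝ x, hh.hom]; simp) hh.nonneg hh.pos
      (fun i x y hxy hpos => by
        rcases hh.orth i x y hxy with h0 | h0
        · exact hpos.1.ne' h0
        · exact hpos.2.ne' h0)
    exact ⟨A, hA4, rk_point hh hs hA⟩

end Vale.Agent.P052.R2.H381
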